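import Vale.Agent.P352X.R.FAR
import Vale.Agent.P352X.Api1P
import Vale.Agent.P352X.Api2

/-!
# P352X, row EE, part A: product test functions, the defect of commutation
-/

set_option linter.all false

open MeasureTheory Filter Topology Set
open scoped SchwartzMap ComplexConjugate ContDiff

namespace Vale.Agent.P352X.EE

open Vale.Agent.P352 Vale.Agent.P352.GF Vale.Agent.P352.BW Vale.Agent.P352.H246
open Vale.Agent.P352.H496 Vale.Agent.P352.H755 Vale.Agent.P352.H15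
open UniformSpace (Completion)

noncomputable section

/-! ### test functions -/

/-- `u(al) v(x) ρ(be)` -/
def tp (u : ℝ → ℝ) (v : R2 → ℝ) (ρ : ℝ → ℝ) : Fn := pr (k3 u v) ρ

/-- transverse derivatives -/
def di (i : Fin 2) (v : R2 → ℝ) (x : R2) : ℝ := fderiv ℝ v x (e2 i)

variable {u u' : ℝ → ℝ} {v v' : R2 → ℝ} {ρ ρ' : ℝ → ℝ} {f g : Fn}

lemma tp_apply (z : V) : tp u v ρ z = ((u (al z) * v (tx z) * ρ (be z) : ℝ) : ℂ) := rfl

lemma dc_tp (hu : Tst u) (hv : Tst v) (hρ : Tst ρ) : Dc (tp u v ρ) :=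
  Far.dc_pr (Ap.cs_prod hu hv) hρ

lemma test_tp (hu : Tst u) (hv : Tst v) (hρ : Tst ρ) : IsTest (tp u v ρ) :=
  Far.isTest_dc (dc_tp hu hv hρ)

lemma bar_tp : bar (tp u v ρ) = tp u v ρ := Far.bar_pr _ _

lemma tst_di (i : Fin 2) (hv : Tst v) : Tst (di i v) := Ap.cs_fderiv _ hv

lemma tst_d (hu : Tst u) : Tst (deriv u) := Ap.cs_deriv hu

lemma pd_eq (h : Differentiable ℝ f) (m : Ix) : pd m f = fun z => fderiv ℝ f z (bas m 1) := by
  funext z
  rw [← (h z).lineDeriv_eq_fderiv, lineDeriv, pd]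
  congr 1
  funext t
  congr 1
  funext n
  simp [bas]

lemma dv_eq (hf : Differentiable ℝ f) (h : V) : dv h f = fun z => fderiv ℝ f z h := by
  funext z
  conv_rhs => rw [pi_eq_sum_univ' h]
  simp only [dv, pd_eq hf, map_sum, map_smul, Complex.real_smul]
  refine Finset.sum_congr rfl fun m _ => ?_
  congr 2
  funext n
  simp [bas, Pi.single_apply, eq_comm]

lemma fd_tp (hu : Tst u) (hv : Tst v) (hρ : Tst ρ) (h : V) : (fun z => fderiv ℝ (tp u v ρ) z h) =
    fun z => (al h : ℝ) * tp (deriv u) v ρ z + (be h : ℝ) * tp u v (deriv ρ) z +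
      ((tx h 0 : ℝ) * tp u (di 0 v) ρ z + (tx h 1 : ℝ) * tp u (di 1 v) ρ z) := by
  funext z
  have a := Complex.ofRealCLM.hasFDerivAt.comp z
    ((((hu.diff _).hasDerivAt.comp_hasFDerivAt z alL.hasFDerivAt).mul
      ((hv.diff _).hasFDerivAt.comp z txL.hasFDerivAt)).mul
      ((hρ.diff _).hasDerivAt.comp_hasFDerivAt z beL.hasFDerivAt))
  have e : tx h = tx h 0 • e2 0 + tx h 1 • e2 1 := by
    ext i
    fin_cases i <;> simp [e2]
  rw [show fderiv ℝ (tp u v ρ) z = _ from a.fderiv]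
  simp only [tp_apply, di, ContinuousLinearMap.comp_apply, ContinuousLinearMap.add_apply,
    ContinuousLinearMap.smul_apply, Complex.ofRealCLM_apply, alL_apply, beL_apply, txL_apply,
    Function.comp_apply, Pi.mul_apply, smul_eq_mul]
  rw [e, map_add, map_smul, map_smul, ← e]
  push_cast [smul_eq_mul]
  ring

lemma diff_tp (hu : Tst u) (hv : Tst v) (hρ : Tst ρ) : Differentiable ℝ (tp u v ρ) :=
  (dc_tp hu hv hρ).1.differentiable (by simp)

lemma dv_a (hu : Tst u) (hv : Tst v) (hρ : Tst ρ) : dv va (tp u v ρ) = tp (deriv u) v ρ := by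
  rw [dv_eq (diff_tp hu hv hρ), fd_tp hu hv hρ]
  simp [-tx_0, -tx_1]

lemma dv_b (hu : Tst u) (hv : Tst v) (hρ : Tst ρ) : dv vb (tp u v ρ) = tp u v (deriv ρ) := by
  rw [dv_eq (diff_tp hu hv hρ), fd_tp hu hv hρ]
  simp [-tx_0, -tx_1]

lemma dv_e (i : Fin 2) (hu : Tst u) (hv : Tst v) (hρ : Tst ρ) :
    dv (ex i) (tp u v ρ) = tp u (di i v) ρ := by
  rw [dv_eq (diff_tp hu hv hρ), fd_tp hu hv hρ]
  fin_cases i <;> simp [e2, -tx_0, -tx_1]

lemma pd_lin (hf : Differentiable ℝ f) (hg : Differentiable ℝ g) (a b : ℂ) (m : Ix) (z : V) :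
    pd m (fun z => a * f z + b * g z) z = a * pd m f z + b * pd m g z := by
  rw [pd_eq ((hf.const_mul a).fun_add (hg.const_mul b)), pd_eq hf, pd_eq hg]
  beta_reduce
  rw [fderiv_fun_add ((hf z).const_mul a) ((hg z).const_mul b), fderiv_const_mul (hf z),
    fderiv_const_mul (hg z)]
  rfl

lemma box_tp (hu : Tst u) (hv : Tst v) (hρ : Tst ρ) : box (tp u v ρ) = fun z =>
    (fun z => 2 * tp (deriv u) v (deriv ρ) z + (-1) * tp u (di 0 (di 0 v)) ρ z) z +
      (-1) * tp u (di 1 (di 1 v)) ρ z := by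
  have p0 : ∀ {u v ρ}, Tst u → Tst v → Tst ρ → pd 0 (tp u v ρ) =
      fun z => (1 / 2) * tp (deriv u) v ρ z + 1 * tp u v (deriv ρ) z := fun a b c => by
    rw [pd_eq (diff_tp a b c), fd_tp a b c]
    simp [al_eq, be_eq, bas]
  have p1 : ∀ {u v ρ}, Tst u → Tst v → Tst ρ → pd 1 (tp u v ρ) =
      fun z => (1 / 2) * tp (deriv u) v ρ z + (-1) * tp u v (deriv ρ) z := fun a b c => by
    rw [pd_eq (diff_tp a b c), fd_tp a b c]
    simp [al_eq, be_eq, bas]
  have p2 : ∀ {u v ρ}, Tst u → Tst v → Tst ρ → pd 2 (tp u v ρ) = tp u (di 0 v) ρ := fun a b c => by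
    rw [pd_eq (diff_tp a b c), ← ex_0, ← dv_eq (diff_tp a b c), dv_e 0 a b c]
  have p3 : ∀ {u v ρ}, Tst u → Tst v → Tst ρ → pd 3 (tp u v ρ) = tp u (di 1 v) ρ := fun a b c => by
    rw [pd_eq (diff_tp a b c), ← ex_1, ← dv_eq (diff_tp a b c), dv_e 1 a b c]
  funext z
  have d1 := diff_tp (tst_d hu) hv hρ
  have d2 := diff_tp hu hv (tst_d hρ)
  rw [box, Fin.sum_univ_four, p0 hu hv hρ, p1 hu hv hρ, p2 hu hv hρ, p3 hu hv hρ, pd_lin d1 d2,
    pd_lin d1 d2, p0 (tst_d hu) hv hρ, p0 hu hv (tst_d hρ), p1 (tst_d hu) hv hρ,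
    p1 hu hv (tst_d hρ), p2 hu (tst_di 0 hv) hρ, p3 hu (tst_di 1 hv) hρ]
  simp [eta, o]
  ring

/-! ### distributions -/

section dis

variable {H : Type*} [NormedAddCommGroup H] [InnerProductSpace ℂ H] [CompleteSpace H]
  {φ : Fn → H}

/-- linear maps on test functions -/
def Dis (φ : Fn → H) : Prop := ∀ (f g : Fn) (a : ℂ), IsTest f → IsTest g →
  φ (fun x => f x + a * g x) = φ f + a • φ g

lemma Dis.zero (h : Dis φ) : φ (fun _ => 0) = 0 := by
  simpa using h _ _ 1 Ap.sw_zero Ap.sw_zero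

lemma Dis.smul (h : Dis φ) (a : ℂ) (hf : IsTest f) : φ (fun x => a * f x) = a • φ f := by
  simpa [h.zero] using h _ _ a Ap.sw_zero hf

lemma Dis.add (h : Dis φ) (hf : IsTest f) (hg : IsTest g) :
    φ (fun x => f x + g x) = φ f + φ g := by
  simpa using h _ _ 1 hf hg

/-- linearity for product functions -/
lemma Dis.tp (h : Dis φ) {U : ℝ → ℝ} {W : R2 → ℝ} (a : ℝ) (hu : Tst u) (hv : Tst v) (hu' : Tst u')
    (hv' : Tst v') (hρ : Tst ρ) (e : ∀ t x, U t * W x = u t * v x + a * (u' t * v' x)) :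
    φ (tp U W ρ) = φ (tp u v ρ) + a • φ (tp u' v' ρ) := by
  rw [← Complex.coe_smul, ← h _ _ a (test_tp hu hv hρ) (test_tp hu' hv' hρ)]
  congr 1
  funext z
  simp only [tp_apply, e]
  push_cast
  ring

/-- the defect of commutation -/
def lam (w w' : H) : H →ₗ[ℝ] ℂ where
  toFun η := inner ℂ w' η - inner ℂ η w
  map_add' a b := by
    rw [inner_add_left, inner_add_right]
    ring
  map_smul' r a := by
    rw [← Complex.coe_smul, inner_smul_left, inner_smul_right, Complex.conj_ofReal, ← mul_sub]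
    rfl

lemma lam_apply (w w' η : H) : lam w w' η = inner ℂ w' η - inner ℂ η w := rfl

lemma Dis.loc (h : Dis φ) {Z : H →L[ℂ] H} {ξ : H} {O : Set V} (hO : ∀ z ∈ O, ∃ U ∈ 𝓝 z,
    ∃ M : VonNeumannAlgebra H, Z ∈ M.commutant ∧ ∀ f, In U f → Pr M ξ (φ f) (φ (bar f)))
    (hf : Dc f) (ho : tsupport f ⊆ O) :
    inner ℂ (star Z ξ) (φ f) = inner ℂ (φ (bar f)) (Z ξ) := by
  refine Ap.dc_ind (P := fun f => inner ℂ (star Z ξ) (φ f) = inner ℂ (φ (bar f)) (Z ξ)) ?_
    (fun f g a _ b _ p q => ?_) (fun z hz => ?_) hf ho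
  · simp [show bar (fun _ => 0) = fun _ => 0 from funext fun _ => star_zero _, h.zero]
  · have a' := Far.isTest_dc a
    have b' := Far.isTest_dc b
    rw [show bar (fun x => f x + g x) = fun x => bar f x + bar g x from
      funext fun _ => star_add _ _, h.add a' b', h.add (isTest_bar a') (isTest_bar b'),
      inner_add_left, inner_add_right, p, q]
  · obtain ⟨U, a, M, b, k⟩ := hO z hz
    exact ⟨U, a, fun f p q => k f ⟨Far.isTest_dc p, p.2, q.trans inter_subset_left⟩ Z b⟩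

end dis

variable {D : Type*} [NormedAddCommGroup D] [InnerProductSpace ℂ D] {c : Ctx D}

/-- `T(h, k)(f) Ω` -/
def TT (c : Ctx D) (h k : V) (f : Fn) : Completion D := c.Tv (hk h k f)

lemma dis_T (h k : V) : Dis (TT c h k) := fun f g a hf hg => by
  simp only [TT, Far.Tv_hk c h k hf, Far.Tv_hk c h k hg, Far.Tv_hk c h k (Ap.sw_lin a hf hg),
    c.Q.lin _ f g a _ (c.Q.bose_fld _ (c.hT.bose _ _)) hf hg, Completion.coe_add,
    Completion.coe_smul, smul_add, Finset.sum_add_distrib, Finset.smul_sum, smul_comm a]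

lemma dis_l : Dis c.l := c.hl.lin

lemma TT_symm (h k : V) (hf : IsTest f) : TT c h k f = TT c k h f := by
  rw [TT, TT, Far.Tv_hk c h k hf, Far.Tv_hk c k h hf, Finset.sum_comm]
  refine Finset.sum_congr rfl fun m _ => Finset.sum_congr rfl fun n _ => ?_
  rw [c.hT.symm n m f _ hf, mul_comm]

lemma cons (G : GRP c) (h : V) (hu : Tst u) (hv : Tst v) (hρ : Tst ρ) :
    TT c va h (tp u v (deriv ρ)) = TT c (ex 0) h (tp u (di 0 v) ρ) +
      TT c (ex 1) h (tp u (di 1 v) ρ) - TT c vb h (tp (deriv u) v ρ) := by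
  have := congrArg (fun x : D => (x : Completion D)) (G.cons h _ c.Q.vac (test_tp hu hv hρ))
  simp only [dv_a hu hv hρ, dv_b hu hv hρ, dv_e _ hu hv hρ, Fin.sum_univ_two, Completion.coe_sub,
    Completion.coe_add, Completion.coe_zero] at this
  exact eq_sub_of_add_eq (sub_eq_zero.1 this)

lemma trace (G : GRP c) (hu : Tst u) (hv : Tst v) (hρ : Tst ρ) :
    TT c (ex 0) (ex 0) (tp u v ρ) + TT c (ex 1) (ex 1) (tp u v ρ) =
      (2 : ℝ) • TT c va vb (tp u v ρ) - (3 : ℝ) • ((2 : ℝ) • c.l (tp (deriv u) v (deriv ρ)) -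
        c.l (tp u (di 0 (di 0 v)) ρ) - c.l (tp u (di 1 (di 1 v)) ρ)) := by
  have t := test_tp hu hv hρ
  have t1 := test_tp (tst_d hu) hv (tst_d hρ)
  have t2 := test_tp hu (tst_di 0 (tst_di 0 hv)) hρ
  have h1 := congrArg (fun x : D => (x : Completion D)) (G.trace _ c.Q.vac t)
  have h2 := c.hl.trace _ t
  rw [box_tp hu hv hρ, c.hl.lin _ _ _ (Ap.sw_lin _ (Ap.sw_cmul _ t1) t2)
    (test_tp hu (tst_di 1 (tst_di 1 hv)) hρ), c.hl.lin _ _ _ (Ap.sw_cmul _ t1) t2,
    dis_l.smul _ t1] at h2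
  simp only [Fin.sum_univ_two, Completion.coe_sub, Completion.coe_add, Completion.coe_smul] at h1
  rw [← Complex.coe_smul, ← Complex.coe_smul, ← Complex.coe_smul]
  push_cast
  have h3 := h2.trans h1
  simp only [TT, Ctx.Tv]
  linear_combination (norm := module) h3

/-! ### scaling -/

lemma sc_T (G : GRP c) {h k : V} {α β L : ℝ} (hL : 0 < L)
    (e1 : scp L 1 h = (Real.sqrt L * α) • h) (e2 : scp L 1 k = (Real.sqrt L * β) • k)
    (hf : IsTest f) :
    Usc c.Q L 1 (TT c h k fun x => f (scp L 1 x)) = ((α * β : ℝ) : ℂ) • TT c h k f := by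
  obtain ⟨hΛ, hs⟩ := G.lsc L 1 hL one_pos
  have hq : 0 < Real.sqrt (L * 1) := Real.sqrt_pos.2 (by positivity)
  have hq' : 0 < Real.sqrt L := Real.sqrt_pos.2 hL
  set Λ := bst va vb (Real.sqrt (L / 1) - 1) (Real.sqrt (1 / L) - 1)
  have e : ∀ {h : V} {α : ℝ}, scp L 1 h = (Real.sqrt L * α) • h → sim 1 Λ 0 h = α • h :=
    fun {h α} e => smul_right_injective _ hq'.ne' (by
      beta_reduce
      rw [smul_smul, ← e, ← hs]
      funext n
      simp [sim])
  have := G.ten _ Λ 0 h k _ c.Q.vac hq hΛ hf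
  simp only [hs] at this
  rw [e e1, e e2, c.Q.U_vac _ _ _ hq hΛ] at this
  rw [TT, Ctx.Tv, Usc, G.coe _ _ _ _ hq hΛ, this]
  change c.Tv _ = _
  rw [TT, Far.Tv_hk c _ _ hf, Far.Tv_hk c _ _ hf, Finset.smul_sum]
  refine Finset.sum_congr rfl fun m _ => ?_
  rw [Finset.smul_sum]
  refine Finset.sum_congr rfl fun n _ => ?_
  rw [smul_smul, ← Complex.ofReal_mul]
  congr 2
  simp only [Pi.smul_apply, smul_eq_mul]
  ring

lemma sc_l (G : GRP c) {L : ℝ} (hL : 0 < L) (hf : IsTest f) :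
    Usc c.Q L 1 (c.l fun x => f (scp L 1 x)) = ((L⁻¹ : ℝ) : ℂ) • c.l f := by
  obtain ⟨hΛ, hs⟩ := G.lsc L 1 hL one_pos
  have := G.pot _ _ 0 f (Real.sqrt_pos.2 (by positivity : 0 < L * 1)) hΛ hf
  simp only [hs] at this
  rw [Real.sq_sqrt (by positivity), mul_one L] at this
  rw [Usc, mul_one L, this, Complex.coe_smul]

lemma sc_a {L : ℝ} (hL : 0 < L) : scp L 1 va = (Real.sqrt L * Real.sqrt L) • va :=
  null_ext (by simp [Real.mul_self_sqrt hL.le]) (by simp) (by simp)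

lemma sc_b {L : ℝ} (hL : 0 < L) : scp L 1 vb = (Real.sqrt L * (Real.sqrt L)⁻¹) • vb :=
  null_ext (by simp) (by simp [mul_inv_cancel₀ (Real.sqrt_pos.2 hL).ne']) (by simp)

lemma sc_e (L : ℝ) (i : Fin 2) : scp L 1 (ex i) = (Real.sqrt L * 1) • ex i :=
  null_ext (by simp) (by simp) (by simp)

/-- weak nullity of scaled product functions -/
lemma wn (G : GRP c) (B : BAS c) {φ : Fn → Completion D} (h : Dis φ)
    (p : ∀ f, IsTest f → inner ℂ c.Om (φ f) = 0) {a : ℝ → ℝ} (s : ∀ L > 0, ∀ f, IsTest f →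
      Usc c.Q L 1 (φ fun x => f (scp L 1 x)) = (a L : ℂ) • φ f) (hu : Tst u) (hv : Tst v)
    (hρ : Tst ρ) {U : ℝ → ℝ → ℝ} {W : ℝ → R2 → ℝ} (e : ∀ L ≥ (1 : ℝ), ∀ t x,
      U L t * W L x = a L * (u (t / L) * v ((Real.sqrt L)⁻¹ • x))) :
    WT atTop (fun L => φ (tp (U L) (W L) ρ)) 0 := fun w => by
  have := (Complex.continuous_conj.tendsto _).comp (Far.wn G B (p _ (test_tp hu hv hρ)) w)
  simp only [Function.comp_def, inner_conj_symm, map_zero] at this
  rw [inner_zero_right]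
  refine this.congr' ?_
  filter_upwards [eventually_ge_atTop (1 : ℝ)] with L hL
  have L0 := one_pos.trans_le hL
  have q := Real.sqrt_pos.2 L0
  have t : IsTest (pr (kL (k3 u v) L) ρ) :=
    Far.isTest_dc (Far.dc_pr (Far.tst_kL (Ap.cs_prod hu hv) L0) hρ)
  have e1 : (fun x => pr (kL (k3 u v) L) ρ (scp L 1 x)) = tp u v ρ := by
    funext x
    simp only [pr, kL, k3, pl_1, pl_2, al_scp, be_scp, tx_scp, mul_one, one_mul, smul_smul, tp_apply]
    rw [inv_mul_cancel₀ q.ne', one_smul, mul_div_cancel_left₀ _ L0.ne']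
  rw [← e1, s L L0 _ t, ← h.smul _ t]
  congr 2
  funext z
  simp only [tp_apply, e L hL, pr, kL, k3, pl_1, pl_2]
  push_cast
  ring

lemma lam_wt {ι : Type*} {l : Filter ι} {F : ι → Completion D} (h : WT l F 0) (w w' : Completion D) :
    Tendsto (fun i => lam w w' (F i)) l (𝓝 0) := by
  simpa [lam_apply] using (h w').sub (h.left w)

/-! ### locality -/

/-- `Z` commutes with the algebra of a neighbourhood of `z`, in which the potential is local -/
def Sp (c : Ctx D) (Z : Completion D →L[ℂ] Completion D) (z : V) : Prop := ∃ R ∈ 𝓝 z,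
  Z ∈ (c.N R).commutant ∧ ∀ f, In R f → Pr (c.N R) c.Om (c.l f) (c.l (bar f))

variable {Z : Completion D →L[ℂ] Completion D}

lemma loc_l (hf : Dc f) (e : bar f = f) (h : ∀ z ∈ tsupport f, Sp c Z z) :
    lam (Z c.Om) (star Z c.Om) (c.l f) = 0 := by
  have := dis_l.loc (fun z hz => (h z hz).imp fun R k => ⟨k.1, _, k.2⟩) hf le_rfl
  rw [lam_apply, this, e, sub_self]

lemma loc_T (G : GRP c) (a b : V) (hf : Dc f) (e : bar f = f) (h : ∀ z ∈ tsupport f, Sp c Z z) :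
    lam (Z c.Om) (star Z c.Om) (TT c a b f) = 0 := by
  have := (dis_T a b).loc (ξ := c.Om) (fun z hz => (h z hz).imp fun R k => ⟨k.1, _, k.2.1,
    fun g hg => (Pr.of_afs (G.afft R (hk a b g) fun m n => ⟨Ap.sw_cmul _ hg.1, hg.2.1.mul_left,
      tsupport_mul_subset_right.trans hg.2.2⟩) c.Q.vac).cast rfl (by
        simp only [TT, Ctx.Tv]
        congr 2
        funext m n z
        simp [hk, bar])⟩) hf le_rfl
  rw [lam_apply, this, e, sub_self]

end

end Vale.Agent.P352X.EE
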