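import Vale.Agent.P352X.R.EE.G

/-!
# P352X, row EE, part B: the second moment of the null energy, twice differentiated
-/

set_option linter.all false

open MeasureTheory Filter Topology Set
open scoped SchwartzMap ComplexConjugate ContDiff

namespace Vale.Agent.P352X.EE

open Vale.Agent.P352 Vale.Agent.P352.GF Vale.Agent.P352.BW Vale.Agent.P352.H246
open Vale.Agent.P352.H496 Vale.Agent.P352.H755 Vale.Agent.P352.H15
open Vale.Agent.P132 (jconj)
open UniformSpace (Completion)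

noncomputable section

/-! ### the profiles -/

/-- a step down from one to zero on `[1, 2]` -/
def kp (t : ℝ) : ℝ := Real.smoothTransition (2 - t)

/-- a step up on `[-1/2, 1/2]` -/
def chi (t : ℝ) : ℝ := kp (3 / 2 - t)

variable {t A L M : ℝ} {x : R2}

@[fun_prop] lemma sm_kp : ContDiff ℝ ∞ kp :=
  Real.smoothTransition.contDiff.comp (contDiff_const.sub contDiff_id)

@[fun_prop] lemma sm_chi : ContDiff ℝ ∞ chi := sm_kp.comp (contDiff_const.sub contDiff_id)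

lemma kp1 (h : t ≤ 1) : kp t = 1 := Real.smoothTransition.one_of_one_le (by linarith)
lemma kp0 (h : 2 ≤ t) : kp t = 0 := Real.smoothTransition.zero_of_nonpos (by linarith)
lemma chi1 (h : 1 / 2 ≤ t) : chi t = 1 := kp1 (by linarith)
lemma chi0 (h : t ≤ -1 / 2) : chi t = 0 := kp0 (by linarith)

lemma der0 {f : ℝ → ℝ} {k : ℝ} (h : ∀ᶠ s in 𝓝 t, f s = k) : deriv f t = 0 :=
  (EventuallyEq.deriv_eq (f₁ := f) (f := fun _ => k) h).trans (deriv_const _ _)

lemma dkp1 (h : t < 1) : deriv kp t = 0 := der0 ((eventually_lt_nhds h).mono fun _ k => kp1 k.le)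
lemma dkp0 (h : 2 < t) : deriv kp t = 0 := der0 ((eventually_gt_nhds h).mono fun _ k => kp0 k.le)
lemma dchi1 (h : 1 / 2 < t) : deriv chi t = 0 :=
  der0 ((eventually_gt_nhds h).mono fun _ k => chi1 k.le)
lemma dchi0 (h : t < -1 / 2) : deriv chi t = 0 :=
  der0 ((eventually_lt_nhds h).mono fun _ k => chi0 k.le)

lemma tst_of {f : ℝ → ℝ} (hf : ContDiff ℝ ∞ f) (a b : ℝ) (h1 : ∀ t, t < a → f t = 0)
    (h2 : ∀ t, b < t → f t = 0) : Tst f :=
  Ap.cs_of hf isCompact_Icc fun t ht => (not_and_or.1 ht).elim (fun k => h1 t (not_le.1 k))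
    fun k => h2 t (not_le.1 k)

lemma sm_d {f : ℝ → ℝ} (hf : ContDiff ℝ ∞ f) : ContDiff ℝ ∞ (deriv f) :=
  (contDiff_infty_iff_deriv.1 hf).2

lemma tst_dkp : Tst (deriv kp) := tst_of (sm_d sm_kp) 1 2 (fun _ => dkp1) fun _ => dkp0
lemma tst_dchi : Tst (deriv chi) := tst_of (sm_d sm_chi) _ _ (fun _ => dchi0) fun _ => dchi1

/-- the profile in `al` -/
def uL (L t : ℝ) : ℝ := chi t * kp (t / L)

/-- the far face -/
def fL (L t : ℝ) : ℝ := L⁻¹ * deriv kp (t / L)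

/-- the transverse profile -/
def vL (M : ℝ) (x : R2) : ℝ := kp (d2 x x / M)

lemma uL_ne (hL : 0 < L) (h : uL L t ≠ 0) : -1 / 2 ≤ t ∧ t ≤ 2 * L :=
  ⟨by_contra fun k => h (by rw [uL, chi0 (not_le.1 k).le, zero_mul]), by_contra fun k =>
    h (by rw [uL, kp0 ((le_div_iff₀ hL).2 (not_le.1 k).le), mul_zero])⟩

lemma tst_uL (hL : 0 < L) : Tst (uL L) :=
  tst_of (by unfold uL; fun_prop) (-1 / 2) (2 * L)
    (fun t h => by_contra fun k => (uL_ne hL k).1.not_gt h)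
    fun t h => by_contra fun k => (uL_ne hL k).2.not_gt h

lemma tst_fL (hL : 0 < L) : Tst (fL L) :=
  Ap.cs_cmul _ (by
    simpa only [smul_eq_mul, div_eq_inv_mul] using Ap.cs_smul (inv_ne_zero hL.ne') tst_dkp)

lemma der_kp (L t : ℝ) : HasDerivAt (fun t => kp (t / L)) (fL L t) t := by
  simpa only [fL, mul_comm (L⁻¹), one_div] using!
    (sm_kp.differentiable (by simp) _).hasDerivAt.comp t ((hasDerivAt_id t).div_const L)

lemma der_uL (hL : 1 ≤ L) (t : ℝ) : deriv (uL L) t = deriv chi t + fL L t := by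
  rw [show deriv (uL L) t = _ from
    ((sm_chi.differentiable (by simp) t).hasDerivAt.mul (der_kp L t)).deriv]
  rcases lt_or_ge t L with h | h
  · have := (div_lt_one (one_pos.trans_le hL)).2 h
    simp [fL, kp1 this.le, dkp1 this]
  · rw [dchi1 (by linarith), chi1 (by linarith)]
    simp

lemma vL1 (hM : 0 < M) (h : d2 x x < M) : vL M x = 1 := kp1 ((div_le_one hM).2 h.le)

lemma tst_vL (hM : 0 < M) : Tst (vL M) :=
  Ap.cs_of (by unfold vL; fun_prop) (isCompact_closedBall 0 (Real.sqrt (2 * M))) fun x hx =>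
    have k := not_le.1 (mt mem_closedBall_zero_iff.2 hx)
    kp0 ((le_div_iff₀ hM).2 (((Real.sqrt_lt' ((Real.sqrt_nonneg _).trans_lt k)).1 k).le.trans
      (norm_sq_le_d2 x)))

lemma vL_sc (hL : 0 < L) (M : ℝ) (x : R2) : vL M ((Real.sqrt L)⁻¹ • x) = vL (M * L) x := by
  rw [vL, vL, d2_smul, d2_smul_l, ← mul_assoc, ← mul_inv, Real.mul_self_sqrt hL.le]
  congr 1
  ring

lemma di0 {v : R2 → ℝ} {k : ℝ} (i : Fin 2) (h : ∀ x, d2 x x < M → v x = k) (x : R2)
    (hx : d2 x x < M) : di i v x = 0 := by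
  have : v =ᶠ[𝓝 x] fun _ => k := ((isOpen_lt (by fun_prop) continuous_const).eventually_mem
    (s := {x | d2 x x < M}) hx).mono h
  simp [di, this.fderiv_eq]

lemma tst_q {v : R2 → ℝ} (hv : Tst v) : Tst fun x => d2 x x * v x := Ap.cs_mul_l (by fun_prop) hv

lemma tst_x {v : R2 → ℝ} (i : Fin 2) (hv : Tst v) : Tst fun x => x i * v x :=
  Ap.cs_mul_l (by fun_prop) hv

lemma di_x {v : R2 → ℝ} (hv : Tst v) (i j : Fin 2) (x : R2) :
    di j (fun x => x i * v x) x = x i * di j v x + e2 j i * v x := by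
  rw [di, show fderiv ℝ (fun x : R2 => x i * v x) x = _ from
    ((hasFDerivAt_apply i x).mul (hv.diff x).hasFDerivAt).fderiv]
  simp [di, mul_comm]

lemma di_q {v : R2 → ℝ} (hv : Tst v) (j : Fin 2) (x : R2) :
    di j (fun x => d2 x x * v x) x = d2 x x * di j v x + 2 * (x j * v x) := by
  rw [di, show fderiv ℝ (fun x : R2 => d2 x x * v x) x = _ from
    ((((hasFDerivAt_apply 0 x).mul (hasFDerivAt_apply 0 x)).add
      ((hasFDerivAt_apply 1 x).mul (hasFDerivAt_apply 1 x))).mul (hv.diff x).hasFDerivAt).fderiv]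
  fin_cases j <;> simp [di, d2, e2] <;> ring

/-! ### the algebra -/

variable {D : Type*} [NormedAddCommGroup D] [InnerProductSpace ℂ D] {c : Ctx D}
  {u ρ : ℝ → ℝ} {v : R2 → ℝ}

lemma step1 (G : GRP c) (i : Fin 2) (hu : Tst u) (hv : Tst v) (hρ : Tst ρ) :
    TT c (ex i) va (tp u (di i fun x => d2 x x * v x) (deriv ρ)) =
      TT c (ex i) va (tp u (fun x => d2 x x * di i v x) (deriv ρ)) + (2 : ℝ) •
        (TT c (ex i) (ex i) (tp u v ρ) + TT c (ex 0) (ex i) (tp u (fun x => x i * di 0 v x) ρ) +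
          TT c (ex 1) (ex i) (tp u (fun x => x i * di 1 v x) ρ) -
          TT c vb (ex i) (tp (deriv u) (fun x => x i * v x) ρ)) := by
  have e : ∀ j, TT c (ex j) (ex i) (tp u (di j fun x => x i * v x) ρ) =
      TT c (ex j) (ex i) (tp u (fun x => x i * di j v x) ρ) + e2 j i • TT c (ex j) (ex i) (tp u v ρ) :=
    fun j => (dis_T _ _).tp _ hu (tst_x i (tst_di j hv)) hu hv hρ fun t x => by
      rw [di_x hv]
      ring
  rw [(dis_T _ _).tp 2 hu (tst_q (tst_di i hv)) hu (tst_x i hv) (tst_d hρ) fun t x => by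
    rw [di_q hv]; ring, TT_symm (ex i) va (test_tp hu (tst_x i hv) (tst_d hρ)),
    cons G _ hu (tst_x i hv) hρ, e, e]
  fin_cases i <;> simp [e2] <;> abel

/-- admissible distributions -/
structure Ad (c : Ctx D) (Z : Completion D →L[ℂ] Completion D) (φ : Fn → Completion D)
    (a : ℝ → ℝ) : Prop where
  dis : Dis φ
  perp : ∀ f, IsTest f → inner ℂ c.Om (φ f) = 0
  sc : ∀ L > 0, ∀ f, IsTest f → Usc c.Q L 1 (φ fun x => f (scp L 1 x)) = (a L : ℂ) • φ f
  loc : ∀ f, Dc f → bar f = f → (∀ z ∈ tsupport f, Sp c Z z) →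
    lam (Z c.Om) (star Z c.Om) (φ f) = 0

variable {Z : Completion D →L[ℂ] Completion D} {φ : Fn → Completion D} {a : ℝ → ℝ} {u0 : ℝ}

lemma ad_l (G : GRP c) : Ad c Z c.l fun L => L⁻¹ :=
  ⟨dis_l, G.perpl, fun _ hL _ => sc_l G hL, fun _ => loc_l⟩

lemma ad_T (G : GRP c) {h k : V} {α β : ℝ → ℝ}
    (e1 : ∀ L > 0, scp L 1 h = (Real.sqrt L * α L) • h)
    (e2 : ∀ L > 0, scp L 1 k = (Real.sqrt L * β L) • k) : Ad c Z (TT c h k) fun L => α L * β L :=
  ⟨dis_T h k, fun _ => Far.perp_Tv G h k, fun L hL _ => sc_T G hL (e1 L hL) (e2 L hL),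
    fun _ => loc_T G h k⟩

/-- the defect vanishes near the part `Gm` of the slab -/
def Sl (c : Ctx D) (Z : Completion D →L[ℂ] Completion D) (u0 A : ℝ) : Prop :=
  ∀ L ≥ A + 1, ∀ z, |be z| ≤ u0 → Gm A L (al z) (tx z) → Sp c Z z

lemma Sl.sp (S : Sl c Z u0 A) (hL : A + 1 ≤ L) (hρ : ∀ t, ρ t ≠ 0 → |t| ≤ u0)
    (h : ∀ t x, u t ≠ 0 → v x ≠ 0 → Gm A L t x) : ∀ z ∈ tsupport (tp u v ρ), Sp c Z z :=
  fun z hz => by
  have := Ap.tsupp_sub (K := {z | |be z| ≤ u0 ∧ Gm A L (al z) (tx z)}) (f := tp u v ρ) (by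
    simp only [Gm, setOf_and, setOf_or]
    refine IsClosed.inter ?_ (IsClosed.union ?_ (IsClosed.inter ?_ (IsClosed.inter ?_ ?_))) <;>
      exact isClosed_le (by fun_prop) (by fun_prop)) (fun z k => by
    simp only [tp_apply, ne_eq, Complex.ofReal_eq_zero, mul_eq_zero, not_or] at k
    exact ⟨hρ _ k.2, h _ _ k.1.1 k.1.2⟩) hz
  exact S L hL z this.1 this.2

/-- families on which the defect tends to zero -/
def Nul (c : Ctx D) (Z : Completion D →L[ℂ] Completion D) (F : ℝ → Completion D) : Prop :=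
  Tendsto (fun L => lam (Z c.Om) (star Z c.Om) (F L)) atTop (𝓝 0)

/-- transverse fluxes -/
lemma nul_x (S : Sl c Z u0 A) (hA : 0 < A)
    (h : ∀ f, Dc f → bar f = f → (∀ z ∈ tsupport f, Sp c Z z) →
      lam (Z c.Om) (star Z c.Om) (φ f) = 0) (hρ : Tst ρ) (r : ∀ t, ρ t ≠ 0 → |t| ≤ u0)
    {W : ℝ → R2 → ℝ} (hW : ∀ L > 0, Tst (W L)) (w : ∀ L > 0, ∀ x, d2 x x < 32 * A * L → W L x = 0) :
    Nul c Z fun L => φ (tp (uL L) (W L) ρ) := by
  refine tendsto_const_nhds.congr' ?_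
  filter_upwards [eventually_ge_atTop (A + 1)] with L hL
  have L0 : 0 < L := by linarith
  exact (h _ (dc_tp (tst_uL L0) (hW L L0) hρ) bar_tp (S.sp hL r fun t x a b => .inr
    ⟨(uL_ne L0 a).1, (uL_ne L0 a).2, not_lt.1 fun k => b (w L L0 x k)⟩)).symm

/-- far faces -/
lemma nul_f (G : GRP c) (B : BAS c) (h : Ad c Z φ a) (hρ : Tst ρ) {W : ℝ → R2 → ℝ} (hv : Tst v)
    (e : ∀ L > (0 : ℝ), ∀ x, L⁻¹ * W L x = a L * v ((Real.sqrt L)⁻¹ • x)) :
    Nul c Z fun L => φ (tp (fL L) (W L) ρ) :=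
  lam_wt (wn G B h.dis h.perp h.sc tst_dkp hv hρ fun L hL t x => by
    rw [fL, mul_right_comm, e L (one_pos.trans_le hL)]
    ring) _ _

/-- longitudinal fluxes -/
lemma nul_a (G : GRP c) (B : BAS c) (S : Sl c Z u0 A) (hA : 0 < A) (h : Ad c Z φ a) (hρ : Tst ρ)
    (r : ∀ t, ρ t ≠ 0 → |t| ≤ u0) {W : ℝ → R2 → ℝ} (hW : ∀ L > 0, Tst (W L)) (hv : Tst v)
    (e : ∀ L > (0 : ℝ), ∀ x, L⁻¹ * W L x = a L * v ((Real.sqrt L)⁻¹ • x)) :
    Nul c Z fun L => φ (tp (deriv (uL L)) (W L) ρ) := by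
  refine Tendsto.congr' ?_ (nul_f G B h hρ hv e)
  filter_upwards [eventually_ge_atTop (A + 1)] with L hL
  have L0 : 0 < L := by linarith
  rw [h.dis.tp (U := deriv (uL L)) 1 tst_dchi (hW L L0) (tst_fL L0) (hW L L0) hρ fun t x => by
    rw [der_uL (by linarith)]; ring, map_add, one_smul, h.loc _ (dc_tp tst_dchi (hW L L0) hρ) bar_tp
    (S.sp hL r fun t x a _ => .inl (abs_le.2 ⟨by_contra fun k => a (dchi0 (by linarith)),
      by_contra fun k => a (dchi1 (by linarith))⟩)), zero_add]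

theorem nul_main (G : GRP c) (B : BAS c) (S : Sl c Z u0 A) (hA : 0 < A) (hρ : Tst ρ)
    (r : tsupport ρ ⊆ Icc (-u0) u0) : Nul c Z fun L =>
      TT c va va (tp (uL L) (fun x => d2 x x * vL (32 * A * L) x) (deriv (deriv ρ))) -
        (4 : ℝ) • TT c va vb (tp (uL L) (vL (32 * A * L)) ρ) := by
  have r0 : ∀ t, ρ t ≠ 0 → |t| ≤ u0 := fun t h => abs_le.2 (r (subset_tsupport _ h))
  have r1 : ∀ t, deriv ρ t ≠ 0 → |t| ≤ u0 := fun t h => abs_le.2 (r (support_deriv_subset h))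
  have p : ∀ L > (0 : ℝ), 0 < 32 * A * L := fun L hL => by positivity
  have tv : ∀ L > (0 : ℝ), Tst (vL (32 * A * L)) := fun L hL => tst_vL (p L hL)
  have t0 : Tst (vL (32 * A)) := tst_vL (by positivity)
  have z : ∀ i, ∀ L > (0 : ℝ), ∀ x, d2 x x < 32 * A * L → di i (vL (32 * A * L)) x = 0 :=
    fun i L hL => di0 i fun x => vL1 (p L hL)
  have s : ∀ L > (0 : ℝ), Real.sqrt L ≠ 0 := fun L hL => (Real.sqrt_pos.2 hL).ne'
  have f1 := nul_a G B S hA (ad_T G (fun _ => sc_b) fun _ => sc_a) (tst_d hρ) r1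
    (fun L hL => tst_q (tv L hL)) (tst_q t0) fun L hL x => by
      rw [vL_sc hL, inv_mul_cancel₀ (s L hL), d2_smul, d2_smul_l, ← mul_assoc _ _ (d2 x x),
        ← mul_inv, Real.mul_self_sqrt hL.le, one_mul, mul_assoc (L⁻¹)]
  have f2 := fun i => nul_a G B S hA (ad_T G (fun _ => sc_b) fun L _ => sc_e L i) hρ r0
    (fun L hL => tst_x i (tv L hL)) (tst_x i t0) fun L hL x => by
      rw [vL_sc hL, mul_one, Pi.smul_apply, smul_eq_mul, ← mul_assoc, ← mul_assoc, ← mul_assoc,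
        ← mul_inv, Real.mul_self_sqrt hL.le]
  have f3 := nul_a G B S hA (ad_l G) (tst_d hρ) r1 tv t0 fun L hL x => by rw [vL_sc hL]
  have g1 := fun i => nul_x S hA (fun _ => loc_T G (ex i) va) (tst_d hρ) r1
    (fun L hL => tst_q (tst_di i (tv L hL))) fun L hL x hx => by rw [z i L hL x hx, mul_zero]
  have g2 := fun i j => nul_x S hA (fun _ => loc_T G (ex j) (ex i)) hρ r0
    (fun L hL => tst_x i (tst_di j (tv L hL))) fun L hL x hx => by rw [z j L hL x hx, mul_zero]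
  have g3 := fun i => nul_x S hA (fun _ => loc_l) hρ r0
    (fun L hL => tst_di i (tst_di i (tv L hL))) fun L hL => di0 i (z i L hL)
  have := (((g1 0).add (g1 1)).sub f1).add ((((((g2 0 0).add (g2 0 1)).sub (f2 0)).add
    (((g2 1 0).add (g2 1 1)).sub (f2 1))).sub ((((f3.const_smul (2 : ℝ)).sub (g3 0)).sub
      (g3 1)).const_smul (3 : ℝ))).const_smul (2 : ℝ))
  simp only [add_zero, sub_zero, smul_zero] at this
  refine this.congr' ?_
  filter_upwards [eventually_gt_atTop (0 : ℝ)] with L hL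
  simp only [← map_add, ← map_sub, ← map_smul]
  congr 1
  rw [cons G _ (tst_uL hL) (tst_q (tv L hL)) (tst_d hρ), step1 G _ (tst_uL hL) (tv L hL) hρ,
    step1 G _ (tst_uL hL) (tv L hL) hρ]
  linear_combination (norm := module) (-2 : ℝ) • trace G (tst_uL hL) (tv L hL) hρ

end

end Vale.Agent.P352X.EE
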