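import Vale.Agent.P352X.R.EE.B

/-!
# P352X, row EE, part F: the Ward identity for `P_b`, and the key identity
-/

set_option linter.all false

open MeasureTheory Filter Topology Set
open scoped SchwartzMap ComplexConjugate ContDiff

namespace Vale.Agent.P352X.EE

open Vale.Agent.P352 Vale.Agent.P352.GF Vale.Agent.P352.BW Vale.Agent.P352.H246
open Vale.Agent.P352.H496 Vale.Agent.P352.H755 Vale.Agent.P352.H15
open Vale.Agent.P132 (jconj)
open UniformSpace (Completion)

noncomputable section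

variable {D : Type*} [NormedAddCommGroup D] [InnerProductSpace ℂ D] {c : Ctx D}
  {X X' : Completion D →L[ℂ] Completion D} {u0 A L t : ℝ} {R : ℝ → ℝ} {k : Completion D}

/-- the cutoff in `be` -/
def sg (u0 A t : ℝ) : ℝ := kp (2 * (t - u0)) * kp (-t - A - 1)

lemma sg1 (h1 : -A - 2 ≤ t) (h2 : t ≤ u0 + 1 / 2) : sg u0 A t = 1 := by
  rw [sg, kp1 (by linarith), kp1 (by linarith), one_mul]

lemma sg0 (h : u0 + 1 < t) : sg u0 A t = 0 := by rw [sg, kp0 (by linarith), zero_mul]

lemma tst_sg : Tst (sg u0 A) := tst_of (by unfold sg; fun_prop) (-A - 3) (u0 + 1)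
  (fun t h => by rw [sg, kp0 (t := -t - A - 1) (by linarith), mul_zero]) fun _ => sg0

/-- the time step -/
def Xi (R : ℝ → ℝ) (L : ℝ) (z : V) : ℝ := 1 - (1 - R (be z)) * kp (al z / L)

/-- the cutoff of the charge density -/
def ch (u0 A L : ℝ) (z : V) : ℝ := uL (3 * L) (al z) * vL (32 * A * L) (tx z) * sg u0 A (be z)

lemma chg (h0 : 0 ≤ u0) (hA : 2 * u0 + 10 ≤ A) (hL : 4 * A ≤ L) (hR : ContDiff ℝ ∞ R)
    (R0 : ∀ t ≤ -u0, R t = 0) (R1 : ∀ t ≥ u0, R t = 1) :
    Chg (closure (dc (pt (3 * A) (-A) 0) 1)) (ch u0 A L) (Xi R L) := by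
  have A0 : 0 < A := by linarith
  have L0 : 0 < L := by linarith
  have e1 : ∀ z, u0 < be z ∨ 2 * L < al z → ∀ᶠ x in 𝓝 z, Xi R L x = 1 := fun z h => h.elim
    (fun h => (cont_be.continuousAt.eventually (eventually_gt_nhds h)).mono fun x h => by
      rw [Xi, R1 _ h.le, sub_self, zero_mul, sub_zero])
    fun h => (cont_al.continuousAt.eventually (eventually_gt_nhds h)).mono fun x h => by
      rw [Xi, kp0 ((le_div_iff₀ L0).2 h.le), mul_zero, sub_zero]
  have e0 : ∀ z, be z < -u0 → al z < L → ∀ᶠ x in 𝓝 z, Xi R L x = 0 := fun z h h' =>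
    ((cont_be.continuousAt.eventually (eventually_lt_nhds h)).and
      (cont_al.continuousAt.eventually (eventually_lt_nhds h'))).mono fun x h => by
      rw [Xi, R0 _ h.1.le, kp1 ((div_le_one L0).2 h.2.le)]
      norm_num
  have jc : ∀ z ∈ Jc (closure (dc (pt (3 * A) (-A) 0) 1)), ∃ x : V, 3 * A - 1 / 2 ≤ al x ∧
      al x ≤ 3 * A + 1 / 2 ∧ -A - 1 ≤ be x ∧ be x ≤ -A + 1 ∧ d2 (tx x) (tx x) ≤ 4 ∧
      d2 (tx z - tx x) (tx z - tx x) ≤ 2 * (al z - al x) * (be z - be x) := fun z ⟨x, h1, h2⟩ => by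
    obtain ⟨b1, b2, b3⟩ := dc_Bx _ _ h1
    have h3 : 0 ≤ mu (z - x) := h2
    rw [mu_eq, al_sub, be_sub, tx_sub] at h3
    exact ⟨x, by linarith [(abs_le.1 b1).1], by linarith [(abs_le.1 b1).2],
      by linarith [(abs_le.1 b2).1], by linarith [(abs_le.1 b2).2], b3, by linarith⟩
  refine ⟨by simpa only [tp_apply, Complex.ofReal_re] using!
      Ap.tst_re (dc_tp (tst_uL (L := 3 * L) (by linarith))
        (tst_vL (M := 32 * A * L) (by positivity)) (tst_sg (u0 := u0) (A := A))),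
    by unfold Xi; fun_prop, ⟨2 * L + u0 + 1, fun z hz => ⟨fun h => e1 z ?_, fun h => ?_⟩⟩,
    fun z hz => ?_⟩
  · rw [time_eq z] at h
    by_contra k
    rw [not_or, not_lt, not_lt] at k
    linarith
  · obtain ⟨x, b1, b2, b3, b4, -, b6⟩ := jc z hz
    rw [time_eq z] at h
    have b7 := (d2_nonneg _).trans b6
    refine e0 z (by_contra fun k => ?_) (by_contra fun k => ?_) <;> nlinarith
  · by_cases k1 : u0 < be z ∨ 2 * L < al z
    · exact .inr ((e1 z k1).mono fun x h => h.trans (e1 z k1).self_of_nhds.symm)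
    by_cases k2 : be z < -u0 ∧ al z < L
    · exact .inr ((e0 z k2.1 k2.2).mono fun x h => h.trans (e0 z k2.1 k2.2).self_of_nhds.symm)
    obtain ⟨x, b1, b2, b3, b4, b5, b6⟩ := jc z hz
    rw [not_or, not_lt, not_lt] at k1
    rw [not_and_or, not_lt, not_lt] at k2
    have b7 := (d2_nonneg _).trans b6
    have b8 : al x ≤ al z ∧ be x ≤ be z := by
      rcases k2 with k | k
      · exact ⟨by nlinarith, by linarith⟩
      · exact ⟨by linarith, by nlinarith⟩
    have b9 : d2 (tx z) (tx z) < 32 * A * L := by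
      have q := d2_nonneg (tx z - (2 : ℝ) • tx x)
      have q' := mul_le_mul (by linarith : 2 * (al z - al x) ≤ 4 * L)
        (by linarith : be z - be x ≤ 2 * A) (by linarith) (by linarith)
      simp only [d2_sub, d2_sub_l, d2_smul, d2_smul_l, d2_comm (tx x) (tx z)] at q b6
      nlinarith
    refine .inl ?_
    filter_upwards [cont_al.continuousAt.eventually (Ioo_mem_nhds (by linarith : 1 / 2 < al z)
      (by linarith : al z < 3 * L)), cont_be.continuousAt.eventually (Ioo_mem_nhds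
      (by linarith : -A - 2 < be z) (by linarith : be z < u0 + 1 / 2)),
      (by fun_prop : Continuous fun z => d2 (tx z) (tx z)).continuousAt.eventually
      (eventually_lt_nhds b9)] with y y1 y2 y3
    rw [ch, uL, chi1 y1.1.le, kp1 ((div_le_one (by linarith)).2 y1.2.le), vL1 (by positivity) y3,
      sg1 y2.1.le y2.2.le]
    norm_num

lemma dR (R0 : ∀ t ≤ -u0, R t = 0) (R1 : ∀ t ≥ u0, R t = 1) (t : ℝ) (h : deriv R t ≠ 0) :
    t ∈ Icc (-u0) u0 :=
  ⟨by_contra fun k => h (der0 ((eventually_lt_nhds (not_le.1 k)).mono fun s k => R0 s k.le)),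
    by_contra fun k => h (der0 ((eventually_gt_nhds (not_le.1 k)).mono fun s k => R1 s k.le))⟩

lemma tst_dR (hR : ContDiff ℝ ∞ R) (R0 : ∀ t ≤ -u0, R t = 0) (R1 : ∀ t ≥ u0, R t = 1) :
    Tst (deriv R) := Ap.cs_of (sm_d hR) isCompact_Icc fun t h => by_contra fun k => h (dR R0 R1 t k)

lemma dens_eq (h0 : 0 ≤ u0) (hA : 2 * u0 + 10 ≤ A) (hL : 4 * A ≤ L) (hR : ContDiff ℝ ∞ R)
    (R0 : ∀ t ≤ -u0, R t = 0) (R1 : ∀ t ≥ u0, R t = 1) (m n : Ix) :
    dens (ch u0 A L) (Xi R L) (fun _ => vb) m n = fun z =>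
      hk va vb (tp (uL L) (vL (32 * A * L)) (deriv R)) m n z + (-1) *
        hk vb vb (tp (fL L) (vL (32 * A * L)) fun t => (1 - R t) * sg u0 A t) m n z := by
  funext z
  have L0 : 0 < L := by linarith
  have a := ((((hR.differentiable (by simp) _).hasDerivAt.comp_hasFDerivAt z
    beL.hasFDerivAt).const_sub 1).mul ((der_kp L _).comp_hasFDerivAt z alL.hasFDerivAt)).const_sub 1
  have e1 : uL (3 * L) (al z) * kp (al z / L) = uL L (al z) := by
    rcases le_total (al z) (3 * L) with h | h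
    · rw [uL, uL, kp1 ((div_le_one (by linarith)).2 h), mul_one]
    · rw [uL, uL, kp0 (t := al z / L) ((le_div_iff₀ L0).2 (by linarith)), mul_zero, mul_zero]
  have e2 : sg u0 A (be z) * deriv R (be z) = deriv R (be z) := by
    by_cases h : deriv R (be z) = 0
    · rw [h, mul_zero]
    · rw [sg1 (by linarith [(dR R0 R1 _ h).1]) (by linarith [(dR R0 R1 _ h).2]), one_mul]
  have e3 : uL (3 * L) (al z) * fL L (al z) = fL L (al z) := by
    by_cases h : deriv kp (al z / L) = 0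
    · rw [fL, h, mul_zero, mul_zero]
    · have h1 := (one_le_div L0).1 (not_lt.1 (mt dkp1 h))
      have h2 := (div_le_iff₀ L0).1 (not_lt.1 (mt dkp0 h))
      rw [uL, chi1 (by linarith), kp1 ((div_le_one (by linarith)).2 (by linarith)), one_mul, one_mul]
  rw [dens, dr_eq ((by unfold Xi; fun_prop : ContDiff ℝ ∞ (Xi R L)).differentiable (by simp)),
    show fderiv ℝ (Xi R L) z = _ from a.fderiv]
  simp only [hk, tp_apply, ContinuousLinearMap.neg_apply, ContinuousLinearMap.add_apply,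
    ContinuousLinearMap.smul_apply, alL_apply, beL_apply, Function.comp_apply, smul_eq_mul,
    ← md_va, ← md_vb, mdot_bas]
  norm_cast
  simp only [md_va, md_vb, ch]
  push_cast
  linear_combination (eta m * va m * (eta n * vb n) * vL (32 * A * L) (tx z)) *
    (sg u0 A (be z) * deriv R (be z) * e1 + uL L (al z) * e2) -
    eta m * vb m * (eta n * vb n) * vL (32 * A * L) (tx z) * (1 - R (be z)) * sg u0 A (be z) * e3

theorem ward (T : T2 c) (h0 : 0 ≤ u0) (hA : 2 * u0 + 10 ≤ A)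
    (hX : X ∈ c.N (dc (pt (3 * A) (-A) 0) 1)) (hX' : X' ∈ c.N (dc (pt A (-A) 0) 1))
    (hk : Gn (Pb c.Q) (X c.Om) k) (hR : ContDiff ℝ ∞ R) (R0 : ∀ t ≤ -u0, R t = 0)
    (R1 : ∀ t ≥ u0, R t = 1) :
    Tendsto (fun L => lam ((jconj c.J X' * X) c.Om) (star (jconj c.J X' * X) c.Om)
      (TT c va vb (tp (uL L) (vL (32 * A * L)) (deriv R)))) atTop
      (𝓝 (-inner ℂ (star (jconj c.J X') c.Om) k)) := by
  have A0 : 0 < A := by linarith
  have ts : Tst fun t => (1 - R t) * sg u0 A t := Ap.cs_mul_l (contDiff_const.sub hR) tst_sg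
  have f := nul_f (Z := jconj c.J X' * X) T.grp T.bas (ad_T T.grp (fun _ => sc_b) fun _ => sc_b) ts
    (W := fun L => vL (32 * A * L)) (tst_vL (M := 32 * A) (by positivity)) fun L hL x => by
      rw [vL_sc hL, ← mul_inv, Real.mul_self_sqrt hL.le]
  have w : ∀ z, z ∈ Wdg va vb (pt (-1) (u0 + 2) 0) ↔ be z < u0 + 2 ∧ -1 < al z := fun z => by
    simp only [Wdg, mem_setOf_eq, md_va, md_vb, be_sub, al_sub, be_pt, al_pt, sub_neg, sub_pos]
  have s : dc (pt (3 * A) (-A) 0) 1 ⊆ Wdg va vb (pt (-1) (u0 + 2) 0) := fun z hz => (w z).2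
    ⟨by linarith [(abs_le.1 (dc_Bx' hz).2.1).2], by linarith [(abs_le.1 (dc_Bx' hz).1).1]⟩
  have y := comm_Y T.jc hX' null_vb null_va (by simp [md_vb]) (s := -1) (t := u0 + 2)
    (fun z hz => by
      rw [md_va, md_vb, al_jr, be_jr]
      exact ⟨by linarith [(abs_le.1 (dc_Bx' hz).1).1], by linarith [(abs_le.1 (dc_Bx' hz).2.1).2]⟩)
    fun z hz => (w z).1 hz
  have := f.sub_const (inner ℂ (star (jconj c.J X') c.Om) k)
  rw [zero_sub] at this
  refine this.congr' ?_
  filter_upwards [eventually_ge_atTop (4 * A)] with L hL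
  have L0 : 0 < L := by linarith
  have tv : Tst (vL (32 * A * L)) := tst_vL (by positivity)
  have t1 := test_tp (tst_uL L0) tv (tst_dR hR R0 R1)
  have t2 := test_tp (tst_fL L0) tv ts
  have p := T.f2 _ 1 va vb _ _ _ (fun _ => GF.one) (fun e => e • vb) (fun _ => vb) X k one_pos
    null_va null_vb (by simp [md_va]) hX (chg h0 hA hL hR R0 R1) s
    ((Ap.tsupp_sub (K := {z | be z ≤ u0 + 1 ∧ -1 / 2 ≤ al z})
      ((isClosed_le cont_be continuous_const).inter (isClosed_le continuous_const cont_al))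
      fun z h => ⟨not_lt.1 fun k => right_ne_zero_of_mul h (sg0 k), (uL_ne (by linarith)
        (left_ne_zero_of_mul (left_ne_zero_of_mul h))).1⟩).trans fun z h => (w z).2
      ⟨by linarith [h.1], by linarith [h.2]⟩) rfl (zero_smul _ _) (fun _ => H496.isLor_one)
    (fun n z => by
      simpa [sim, GF.one, bas] using (hasDerivAt_id (0 : ℝ)).mul_const (vb n)) hk _ y
  have e : c.Tv (dens (ch u0 A L) (Xi R L) fun _ => vb) =
      TT c va vb (tp (uL L) (vL (32 * A * L)) (deriv R)) -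
        TT c vb vb (tp (fL L) (vL (32 * A * L)) fun t => (1 - R t) * sg u0 A t) := by
    have q := fun m n => (congrArg (fun f => c.T m n f c.Q.vac)
      (dens_eq h0 hA hL hR R0 R1 m n)).trans (c.Q.lin _ _ _ _ _ (c.Q.bose_fld _ (c.hT.bose m n))
        (Ap.sw_cmul _ t1) (Ap.sw_cmul _ t2))
    simp only [TT, Ctx.Tv, Ctx.Tf, q, neg_smul, one_smul, ← sub_eq_add_neg, Finset.sum_sub_distrib,
      Completion.coe_sub]
  rw [inner_add_right, star_inner X, comm_apply (c.hN.mono _ _ s X hX) y, ← star_inner X] at p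
  rw [eq_sub_iff_add_eq.1 e |>.symm, map_add, lam_apply _ _ (c.Tv _), star_mul,
    ContinuousLinearMap.mul_apply, ContinuousLinearMap.mul_apply, ← p]
  ring

theorem key (T : T2 c) (bb : BB c) (dd : DD c) (h0 : 0 ≤ u0) (hA : 2 * u0 + 10 ≤ A)
    (hX : X ∈ c.N (dc (pt (3 * A) (-A) 0) 1)) (gX : c.Good X)
    (hX' : X' ∈ c.N (dc (pt A (-A) 0) 1)) (gX' : c.Good X')
    (hk : Gn (Pb c.Q) (X c.Om) k) (hR : ContDiff ℝ ∞ R) (R0 : ∀ t ≤ -u0, R t = 0)
    (R1 : ∀ t ≥ u0, R t = 1) :
    ∫ u, ((deriv (deriv (deriv R)) u : ℝ) : ℂ) * inner ℂ (star (jconj c.J X') c.Om)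
      (gen (c.Ky (u • vb)) (X c.Om)) = 4 * inner ℂ (star (jconj c.J X') c.Om) k := by
  have A0 : 0 < A := by linarith
  have t1 := tst_dR hR R0 R1
  have t3 := tst_d (tst_d t1)
  have s1 : tsupport (deriv R) ⊆ Icc (-u0) u0 := Ap.tsupp_sub isClosed_Icc (dR R0 R1)
  have tk : Tst fun t => kp t * kp (-t) := tst_of (by fun_prop) (-2) 2
    (fun t h => by rw [kp0 (t := -t) (by linarith), mul_zero]) fun t h => by rw [kp0 h.le, zero_mul]
  have t0 : Tst (vL (32 * A)) := tst_vL (by positivity)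
  have b := bb (u0 + 1) 1 _ 1 _ 1 X X' chi (k3 (fun t => kp t * kp (-t)) (vL (32 * A))) _ 0 one_pos
    one_pos one_pos (fun z hz => ⟨by linarith [(abs_le.1 (dc_Bx' hz).2.1).2],
      by linarith [(abs_le.1 (dc_Bx' hz).1).1]⟩) (fun z hz => ⟨by
      linarith [(abs_le.1 (dc_Bx' hz).2.1).2], by linarith [(abs_le.1 (dc_Bx' hz).1).1]⟩)
    hX gX hX' gX' sm_chi (fun _ => chi0) (fun _ => chi1) ⟨Ap.cs_prod tk t0, by
      filter_upwards [continuous_fst.continuousAt.eventually (Ioo_mem_nhds neg_one_lt_zero one_pos),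
        (by fun_prop : Continuous fun y : P3 => d2 y.2 y.2).continuousAt.eventually
        (eventually_lt_nhds (b := 32 * A) (by simpa using A0))] with y y1 y2
      rw [k3, kp1 y1.2.le, kp1 (by linarith [y1.1]), vL1 (by positivity) y2]
      norm_num⟩ t3 ((tsupport_deriv_subset.trans (tsupport_deriv_subset.trans s1)).trans
      (Icc_subset_Ioo (by linarith) (by linarith)))
  simp only [tv_zero, zero_add, sub_zero] at b
  have w := (wn T.grp T.bas (dis_T va va) (fun _ => Far.perp_Tv T.grp va va)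
    (fun L hL _ => sc_T T.grp hL (sc_a hL) (sc_a hL)) tk (tst_q t0) t3
    (U := fun L t => kp (t / L) * kp (-(t / L))) (W := fun L x => d2 x x * vL (32 * A * L) x)
    fun L hL t x => by
      have L0 := one_pos.trans_le hL
      rw [vL_sc L0, d2_smul, d2_smul_l, ← mul_assoc _ _ (d2 x x), ← mul_inv,
        Real.mul_self_sqrt L0.le]
      field_simp) (star (jconj c.J X' * X) c.Om)
  have := (w.sub (nul_main T.grp T.bas (fun L hL z => sp T.jc dd hA hX hX' hL) A0 t1 s1)).sub
    ((ward T h0 hA hX hX' hk hR R0 R1).const_smul (4 : ℝ))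
  refine tendsto_nhds_unique_of_eventuallyEq b (this.trans_eq ?_) ?_
  · simp
  filter_upwards [eventually_ge_atTop (1 : ℝ)] with L hL
  have L0 := one_pos.trans_le hL
  have tv := tst_q (tst_vL (M := 32 * A * L) (by positivity))
  have e0 : ∀ t, chi t * (kp (t / L) * kp (-(t / L))) = uL L t := fun t => by
    rcases le_total t (-1 / 2) with h | h
    · rw [uL, chi0 h, zero_mul, zero_mul]
    · rw [uL, kp1 (t := -(t / L)) (neg_le.1 ((le_div_iff₀ L0).2 (by linarith))), mul_one]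
  have tkL : Tst fun t => kp (t / L) * kp (-(t / L)) := by
    simpa only [smul_eq_mul, div_eq_inv_mul] using! Ap.cs_smul (inv_ne_zero L0.ne') tk
  have e1 := (dis_T (c := c) va va).tp (U := fun t => (1 - chi t) * (kp (t / L) * kp (-(t / L))))
    (W := fun x => d2 x x * vL (32 * A * L) x) (-1) tkL tv (tst_uL L0) tv t3 fun t x => by
      rw [← e0]; ring
  rw [neg_one_smul, ← sub_eq_add_neg] at e1
  rw [sub_sub, ← map_smul, ← map_add, sub_add_cancel, lam_apply, ← sub_add, add_comm,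
    ← inner_sub_right, ← e1, star_mul, ContinuousLinearMap.mul_apply, ContinuousLinearMap.mul_apply]
  unfold Ctx.om2
  congr 3 <;> funext m n z
  · simp only [bar, P352X.hk, pr, kL, k3, tp_apply, pl_1, pl_2, vL_sc L0, ← e0, star_mul',
      Complex.star_def, Complex.conj_ofReal]
    push_cast
    ring
  · simp only [P352X.hk, pr, kL, k3, tp_apply, pl_1, pl_2, vL_sc L0]
    push_cast
    ring

end

end Vale.Agent.P352X.EE
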