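import Vale.Agent.P352X.R.EE.A

/-!
# P352X, row EE, part G: geometry
-/

set_option linter.all false

open MeasureTheory Filter Topology Set
open scoped SchwartzMap ComplexConjugate ContDiff

namespace Vale.Agent.P352X.EE

open Vale.Agent.P352 Vale.Agent.P352.GF Vale.Agent.P352.BW Vale.Agent.P352.H246
open Vale.Agent.P352.H496 Vale.Agent.P352.H755 Vale.Agent.P352.H15
open Vale.Agent.P132 (jconj)
open UniformSpace (Completion)

noncomputable section

variable {D : Type*} [NormedAddCommGroup D] [InnerProductSpace ℂ D] {c : Ctx D}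
  {X X' : Completion D →L[ℂ] Completion D} {O R : Set V} {n n' z z0 : V} {s t : ℝ} {w : R2}

lemma ex_pt (hn : IsNull n) (hn' : IsNull n') (h : 0 < mdot n n') (s t : ℝ) :
    ∃ y, mdot n y = s ∧ mdot n' y = t :=
  ⟨(t / mdot n n') • n + (s / mdot n n') • n', by
    rw [md_add, md_smul, md_smul, hn.1, mul_zero, zero_add, div_mul_cancel₀ _ h.ne'], by
    rw [md_add, md_smul, md_smul, hn'.1, mul_zero, add_zero, md_comm n', div_mul_cancel₀ _ h.ne']⟩

/-- separation by a wedge -/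
lemma comm_X (J : JC c) (hX : X ∈ c.N O) (hn : IsNull n) (hn' : IsNull n') (h : 0 < mdot n n')
    (hO : ∀ z ∈ O, mdot n z < s ∧ t < mdot n' z) (hR : ∀ z ∈ R, mdot n' z < t ∧ s < mdot n z) :
    X ∈ (c.N R).commutant := by
  obtain ⟨y, a, b⟩ := ex_pt hn hn' h s t
  refine comm_anti (c.hN.mono R (Wdg n' n y) fun z hz => ?_) X ?_
  · simpa only [Wdg, mem_setOf_eq, md_sub, a, b, sub_neg, sub_pos] using hR z hz
  · rw [J.dual n' n y hn' hn (md_comm n n' ▸ h)]
    refine c.hN.mono O _ (fun z hz => ?_) X hX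
    simpa only [Wdg, mem_setOf_eq, md_sub, a, b, sub_neg, sub_pos] using hO z hz

lemma md_j (n z : V) : mdot (-jr n) z = -mdot n (jr z) := by
  rw [md_neg_l, ← md_jr, jr_jr]

lemma null_j (hn : IsNull n) : IsNull (-jr n) :=
  ⟨by rw [md_j, ← md_jr, jr_jr, md_neg, neg_neg, md_jr, hn.1], by
    have := hn.2
    rw [time_eq n] at this
    simpa [time_eq (-jr n)] using this⟩

lemma comm_Y (J : JC c) (hX : X ∈ c.N O) (hn : IsNull n) (hn' : IsNull n') (h : 0 < mdot n n')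
    (hO : ∀ z ∈ O, mdot n (jr z) < s ∧ t < mdot n' (jr z))
    (hR : ∀ z ∈ R, mdot n' z < t ∧ s < mdot n z) : jconj c.J X ∈ (c.N R).commutant := by
  obtain ⟨y, a, b⟩ := ex_pt hn hn' h s t
  have e : ∀ z, z ∈ Wdg (-jr n') (-jr n) (jr y) ↔ mdot n (jr z) < s ∧ t < mdot n' (jr z) :=
    fun z => by
      simp only [Wdg, mem_setOf_eq, md_sub, md_j, jr_jr, a, b, sub_neg, sub_pos, neg_lt_neg_iff,
        and_comm]
  refine comm_X J (J.alg _ _ (jr y) (null_j hn') (null_j hn) ?_ X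
    (c.hN.mono O _ (fun z hz => (e z).2 (hO z hz)) X hX)) hn hn' h ?_ hR
  · rwa [md_neg, md_neg_l, neg_neg, md_jr, md_comm]
  · rintro _ ⟨z, hz, rfl⟩
    exact (e z).1 hz

/-- null vectors -/
def nv (w : R2) : V := pt 1 (d2 w w / 2) w

lemma md_nv (w : R2) (z : V) : mdot (nv w) z = be z + d2 w w / 2 * al z - d2 w (tx z) := by
  simp [nv, mdot_null]

lemma null_nv (w : R2) : IsNull (nv w) :=
  ⟨by rw [md_nv]; simp [nv], by
    have := d2_nonneg w
    simp only [time_eq, nv, al_pt, be_pt]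
    positivity⟩

lemma fut (h : 0 < mu z) (h' : 0 < mdot (nv w) z) : 0 < al z ∧ 0 < be z := by
  rw [mu_eq] at h
  rw [md_nv] at h'
  have h1 := d2_nonneg (tx z)
  have a : 0 < al z := by
    by_contra k
    have h2 := d2_nonneg (tx z - al z • w)
    have h3 := mul_nonneg (neg_nonneg.2 (not_lt.1 k)) h'.le
    simp only [d2, Pi.sub_apply, Pi.smul_apply, smul_eq_mul] at h h2 h3
    nlinarith
  exact ⟨a, (pos_iff_pos_of_mul_pos (by nlinarith : 0 < al z * be z)).1 a⟩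

/-- a cut cone through a given point -/
lemma cone (dd : DD c) (z0 : V) (w : R2) : ∃ R ∈ 𝓝 z0,
    (∀ f, In R f → Pr (c.N R) c.Om (c.l f) (c.l (bar f))) ∧
      ∀ z ∈ R, mdot (nv w) z < mdot (nv w) z0 + 1 ∧ al z0 - 1 < al z ∧ be z0 - 2 < be z := by
  have w0 := d2_nonneg w
  set δ := (1 + d2 w w)⁻¹ with hδ
  have d0 : 0 < δ := by positivity
  have d1 : δ + δ * d2 w w = 1 := by rw [← mul_one_add, inv_mul_cancel₀ (by positivity)]
  have e : mdot (nv w) vb = 1 := by simp [md_nv]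
  refine ⟨{z | z - (z0 - δ • nv w + vb) ∈ HM.Rg (nv w) vb (1 / 4)}, IsOpen.mem_nhds ?_ ?_,
    fun f => dd _ _ _ _ f (null_nv w) null_vb e (by norm_num), fun z hz => ?_⟩
  · simp only [HM.Rg, mem_setOf_eq, setOf_and]
    refine IsOpen.inter ?_ (IsOpen.inter ?_ ?_) <;> exact isOpen_lt (by fun_prop) (by fun_prop)
  · have e' : z0 - (z0 - δ • nv w + vb) = δ • nv w - vb := by abel
    rw [mem_setOf_eq, e']
    simp only [mem_setOf_eq, HM.Rg, md_sub, md_sub_l, md_smul, md_smul_l, (null_nv w).1, e,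
      md_comm vb (nv w), null_vb.1]
    refine ⟨by norm_num, by norm_num, by linarith⟩
  · obtain ⟨a, b, k⟩ := hz
    set ζ := z - (z0 - δ • nv w + vb) with hζ
    have h := fut (z := ζ + (2 : ℝ) • vb) (w := w) (by
      simp only [mu, md_add, md_add_l, md_smul, md_smul_l, null_vb.1, md_comm ζ vb]
      linarith) (by
      rw [md_add, md_smul, e]
      linarith)
    rw [hζ, md_sub, md_add, md_sub, md_smul, (null_nv w).1, e] at a
    simp only [hζ, nv, al_add, al_sub, al_smul, al_vb, al_pt, be_add, be_sub, be_smul, be_vb,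
      be_pt] at h
    have := mul_nonneg d0.le w0
    exact ⟨by linarith, by linarith, by linarith⟩

/-- boxes around the double cones -/
def Bx (α β : ℝ) : Set V := {z | |al z - α| ≤ 1 / 2 ∧ |be z - β| ≤ 1 ∧ d2 (tx z) (tx z) ≤ 4}

lemma dc_Bx (α β : ℝ) : closure (dc (pt α β 0) 1) ⊆ Bx α β := by
  refine closure_minimal (fun z hz => ?_) (by
    simp only [Bx, setOf_and]
    refine IsClosed.inter ?_ (IsClosed.inter ?_ ?_) <;> exact isClosed_le (by fun_prop) (by fun_prop))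
  have e1 : al (bas o 1) = 1 / 2 := by simp [al_eq, bas, o]
  have e2 : be (bas o 1) = 1 := by simp [be_eq, bas, o]
  have e3 : tx (bas o 1) = 0 := by
    ext i
    fin_cases i <;> simp [bas, o]
  have a1 := ((mem_Fc _).1 hz.1).1
  obtain ⟨a2, a3⟩ := (mem_Fc' _).1 hz.1
  have a4 := ((mem_Fc _).1 hz.2).1
  have a5 := ((mem_Fc' _).1 hz.2).1
  simp only [mu_eq, al_sub, al_add, be_sub, be_add, tx_sub, al_pt, be_pt, tx_pt, e1, e2, e3,
    sub_zero] at a1 a2 a3 a4 a5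
  exact ⟨abs_le.2 ⟨by linarith, by linarith⟩, abs_le.2 ⟨by linarith, by linarith⟩, by nlinarith⟩

lemma dc_Bx' {α β : ℝ} (hz : z ∈ dc (pt α β 0) 1) : z ∈ Bx α β := dc_Bx α β (subset_closure hz)

/-- the part of the plane where the defect vanishes -/
def Gm (A L : ℝ) (t : ℝ) (x : R2) : Prop :=
  |t| ≤ 1 / 2 ∨ -1 / 2 ≤ t ∧ t ≤ 2 * L ∧ 32 * A * L ≤ d2 x x

variable {u A L : ℝ}

lemma sp_of (J : JC c) (dd : DD c) (hA : 2 * u + 10 ≤ A) (hX : X ∈ c.N (dc (pt (3 * A) (-A) 0) 1))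
    (hX' : X' ∈ c.N (dc (pt A (-A) 0) 1)) (h1 : |be z0| ≤ u) (h2 : -1 / 2 ≤ al z0)
    (hw : 0 < d2 w w) (h : ∀ z, z ∈ Bx (3 * A) (-A) ∨ z ∈ Bx (-A) A →
      mdot (nv w) z0 + 1 < mdot (nv w) z) : Sp c (jconj c.J X' * X) z0 := by
  obtain ⟨R, a, b, k⟩ := cone dd z0 w
  have u0 := (abs_nonneg _).trans h1
  have h3 := (abs_le.1 h1).1
  refine ⟨R, a, mul_mem (comm_Y J hX' null_vb (null_nv w) (by simp [md_vb, nv]) (s := al z0 - 1)
    (fun z hz => ⟨?_, h _ (.inr ?_)⟩) fun z hz => ⟨(k z hz).1, (k z hz).2.1⟩)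
    (comm_X J hX null_va (null_nv w) (by simpa [md_va, nv] using hw) (s := be z0 - 2)
    (fun z hz => ⟨?_, h z (.inl (dc_Bx' hz))⟩) fun z hz => ⟨(k z hz).1, (k z hz).2.2⟩), b⟩
  · have := (abs_le.1 (dc_Bx' hz).1).1
    rw [md_vb, al_jr]
    linarith
  · obtain ⟨b1, b2, b3⟩ := dc_Bx' hz
    exact ⟨by rwa [al_jr, neg_sub_neg, abs_sub_comm], by
      rwa [be_jr, ← neg_add', abs_neg, ← sub_neg_eq_add], by rwa [tx_jr]⟩
  · have := (abs_le.1 (dc_Bx' hz).2.1).2
    rw [md_va]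
    linarith

lemma sp (J : JC c) (dd : DD c) (hA : 2 * u + 10 ≤ A) (hX : X ∈ c.N (dc (pt (3 * A) (-A) 0) 1))
    (hX' : X' ∈ c.N (dc (pt A (-A) 0) 1)) (hL : A + 1 ≤ L) (h1 : |be z0| ≤ u)
    (h2 : Gm A L (al z0) (tx z0)) : Sp c (jconj c.J X' * X) z0 := by
  have u0 := (abs_nonneg _).trans h1
  have h3 := (abs_le.1 h1).2
  rcases h2 with h2 | ⟨h2, h4, h5⟩
  · obtain ⟨h4, h5⟩ := abs_le.1 h2
    obtain ⟨σ, s1, s2⟩ : ∃ σ : ℝ, σ * σ = 1 ∧ 0 ≤ σ * tx z0 0 := (le_total 0 (tx z0 0)).elim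
      (fun h => ⟨1, by norm_num, by linarith⟩) fun h => ⟨-1, by norm_num, by linarith⟩
    have e : d2 (σ • e2 0) (σ • e2 0) = 1 := by simp [d2_smul, d2_smul_l, s1]
    refine sp_of J dd hA hX hX' h1 (by linarith) (w := σ • e2 0) (by rw [e]; exact one_pos)
      fun z hz => ?_
    rw [md_nv, md_nv, e, d2_smul_l, d2_smul_l, d2_e2_l, d2_e2_l]
    have q : d2 (tx z) (tx z) ≤ 4 → σ * tx z 0 ≤ 2 := fun h => by
      have := (sq_le_d2 (tx z) 0).trans h
      nlinarith [sq_nonneg (σ * tx z 0 - 2)]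
    rcases hz with ⟨b1, b2, b3⟩ | ⟨b1, b2, b3⟩
    all_goals
      have b4 := (abs_le.1 b1).1
      have b5 := (abs_le.1 b2).1
      have b6 := q b3
      linarith
  · have L0 : 0 < L := by linarith
    have A0 : 0 < A := by linarith
    set x := tx z0
    have x0 : 0 < d2 x x := lt_of_lt_of_le (by positivity) h5
    set τ := (4 * L)⁻¹
    have t0 : 0 < τ := by positivity
    have t1 : τ * L = 1 / 4 := by
      simp only [τ]
      field_simp
    refine sp_of J dd hA hX hX' h1 h2 (w := τ • x) (by rw [d2_smul, d2_smul_l]; positivity)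
      fun z hz => ?_
    have b : -A - 1 / 2 ≤ al z ∧ -A - 1 ≤ be z ∧ d2 (tx z) (tx z) ≤ 4 := by
      rcases hz with ⟨b1, b2, b3⟩ | ⟨b1, b2, b3⟩
      all_goals exact ⟨by linarith [(abs_le.1 b1).1], by linarith [(abs_le.1 b2).1], b3⟩
    obtain ⟨b1, b2, b3⟩ := b
    rw [md_nv, md_nv, d2_smul, d2_smul_l, d2_smul_l]
    have c1 : d2 x (tx z) ≤ d2 x x / 4 + 4 := by
      have := d2_nonneg (x - (2 : ℝ) • tx z)
      simp only [d2_sub, d2_sub_l, d2_smul, d2_smul_l, d2_comm (tx z) x] at this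
      linarith
    have c2 : τ * (al z0 - al z) ≤ 3 / 4 :=
      (mul_le_mul_of_nonneg_left (by linarith : al z0 - al z ≤ 3 * L) t0.le).trans_eq
        (by linarith)
    have c3 : 8 * A ≤ τ * d2 x x := by
      have := mul_le_mul_of_nonneg_left h5 t0.le
      nlinarith
    have c4 := mul_le_mul_of_nonneg_left c2 (mul_pos t0 x0).le
    have c5 := mul_le_mul_of_nonneg_left c1 t0.le
    have c6 : τ ≤ 1 / 4 := by nlinarith
    nlinarith

end

end Vale.Agent.P352X.EE
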